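/-!
# Row 176 — overview of the proof (owner helper79; comments only)

**Part I (semigroup).**  `Thue.lean`: a system `S : Sys X` has relations `x y = x' y'` and `x y = 0`.
Three properties are needed: `S.Inf` (long nonzero words), `S.Nil 𝕜 L` for all `L` (for every
`L`-state weighted automaton `μ`, the sum of `μ w` over a long nonzero class vanishes, char. 2), and
`S.Pos (6^k)` for all `k` (a long factor of a nonzero word knows its position modulo `6^k`).
They are obtained from a tower of systems `sys b` (`Mach.lean`) in which `sys b` simulates
`sys (2^b)` on blocks of length `Q b` (`Simul`, file `MSimul`):
* `Parse*`: canonical parse of a nonzero word into valid zones; soundness and completeness;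
* `NilOf`: `Nil (L * (|X'|+1))` upstairs gives `Nil L` downstairs; `PosOf`: `Pos N ⇒ Pos (Q N)`;
* `Kill*`, `Alt`: the letters of level `2^b` in quarter 3 carry `n' = 2^(2^b)` labels which are
  permuted freely; a label is stored downstairs in a segment with only `|Pat| ≈ c 2^b` shapes, so
  the Capelli identity kills the class sums as soon as `L² |Pat| + 2 < n'`; `tower` does the
  numerics.
* The machine (`M*` files): a head walks in a zone of two blocks and verifies column by column that
  the two encoded letters and their images form an entry of the finite table `TabP` (which is
  written in the read-only program segment: self-reference through `ent`, `prog`); mode `true`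
  rewrites old bits to new bits, mode `false` only checks; the link `Lnk` of the two final
  configurations is one relation of the next level.  Every running configuration must have a
  predecessor (`Stuck`), so every nonzero zone rolls back to two clean blocks.

**Part II (algebra, S0266).**  `Alg*`: `S.R` is the `𝔽₂`-algebra of the system; `AlgNil*`: matrices
over the augmentation ideal are nilpotent (Higman linearisation + `Nil`).

**Part III (group, S0265).**  `G = ker (St₅ R → St₅ 𝔽₂)`.
* finitely presented: `FP` (free algebra), `FPsub` (quotient rings), `RS` (finite index), `FinF2`;
* `K₂` part `KK`: central (`Gauss`), injective stability (`Tri*`, `Eps*`, `Orb`, `Act*`, `Stab*`: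
  `St V R` acts on Gauss triples glued along changes of order, with a cocycle in `St₅`);
* `Local*`: every `z ∈ KK` dies in the `N`-fold cyclic cover `FN N` for large `N`;
* `Shift`, `Deep*`, `Cover`: for deep `z` (in `NI (I m)`) the cover of `z` is stably `z ^ N` (shift
  register + `Pos N`), so `z ^ N = 1`; `N = 2^k` gives the `2`-group property, `N = 2^k, 3^k`
  residual finiteness, together with the finite `2`-quotients of `Filt*`.
-/
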